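import Mathlib

/-!
# P166: the model

Haar law on the orthogonal group, the pressure of `J = Uᵀ diag(l) U`, and the conditions on the
eigenvalue arrays.
-/

namespace Vale.Agent.P166

open MeasureTheory Filter Topology Matrix
open scoped BoundedContinuousFunction

noncomputable section

/-- The orthogonal group `O(N)`. -/
abbrev OMat (N : ℕ) := Matrix.orthogonalGroup (Fin N) ℝ

lemma isCompact_orthogonal (N : ℕ) :
    IsCompact (Matrix.orthogonalGroup (Fin N) ℝ : Set (Matrix (Fin N) (Fin N) ℝ)) := by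
  have hbox : IsCompact (Set.pi Set.univ fun _ : Fin N => Set.pi Set.univ fun _ : Fin N =>
      Set.Icc (-1 : ℝ) 1) := isCompact_univ_pi fun _ => isCompact_univ_pi fun _ => isCompact_Icc
  refine hbox.of_isClosed_subset ?_ ?_
  · have : (Matrix.orthogonalGroup (Fin N) ℝ : Set (Matrix (Fin N) (Fin N) ℝ))
        = {A | A * Aᵀ = 1} := Set.ext fun A => mem_orthogonalGroup_iff (n := Fin N) (R := ℝ)
    rw [this]
    exact isClosed_eq (by fun_prop) continuous_const
  · intro A hA i _ j _
    have h1 := congrFun (congrFun ((mem_orthogonalGroup_iff (n := Fin N) (R := ℝ)).1 hA) i) i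
    simp only [one_apply_eq] at h1
    have h2 : A i j * A i j ≤ 1 := h1 ▸ Finset.single_le_sum
      (f := fun k => A i k * A i k) (fun k _ => mul_self_nonneg _) (Finset.mem_univ j)
    exact ⟨by nlinarith, by nlinarith⟩

instance (N : ℕ) : CompactSpace (OMat N) :=
  isCompact_iff_compactSpace.1 (isCompact_orthogonal N)

instance (N : ℕ) : MeasurableSpace (OMat N) := borel _

instance (N : ℕ) : BorelSpace (OMat N) := ⟨rfl⟩

/-- The Haar probability measure on `O(N)`. -/
def haarO (N : ℕ) : Measure (OMat N) := Measure.haarMeasure ⊤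

/-- The spins `±1`. -/
def spin {N : ℕ} (s : Fin N → Bool) (i : Fin N) : ℝ := if s i then 1 else -1

/-- The pressure of `J = Uᵀ diag(l) U`: `N⁻¹ log (2⁻ᴺ ∑_σ exp (β/2 σᵀ J σ))`. -/
def pressure {N : ℕ} (β : ℝ) (l : Fin N → ℝ) (U : OMat N) : ℝ :=
  Real.log ((∑ s : Fin N → Bool, Real.exp (β / 2 *
    (spin s ⬝ᵥ (((U : Matrix (Fin N) (Fin N) ℝ)ᵀ * diagonal l * (U : Matrix (Fin N) (Fin N) ℝ))
      *ᵥ spin s)))) / 2 ^ N) / N

/-- The conditions on the eigenvalues: `μ` is a probability measure with `a, b` the least and the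
largest point of its support, the empirical measures of the rows of `l` tend to `μ` weakly and
their least and largest points tend to `a` and `b`. -/
structure Admissible (μ : Measure ℝ) (a b : ℝ) (l : (N : ℕ) → Fin N → ℝ) : Prop where
  prob : IsProbabilityMeasure μ
  supp : μ (Set.Icc a b)ᶜ = 0
  left_edge : ∀ ε > 0, 0 < μ (Set.Icc a (a + ε))
  right_edge : ∀ ε > 0, 0 < μ (Set.Icc (b - ε) b)
  weak : ∀ f : ℝ →ᵇ ℝ, Tendsto (fun N : ℕ => (∑ i, f (l N i)) / N) atTop (𝓝 (∫ x, f x ∂μ))
  least : Tendsto (fun N : ℕ => ⨅ i, l N i) atTop (𝓝 a)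
  largest : Tendsto (fun N : ℕ => ⨆ i, l N i) atTop (𝓝 b)

/-- The pressures of the array converge in mean to the deterministic number `c`. -/
def ConvergesTo (β : ℝ) (l : (N : ℕ) → Fin N → ℝ) (c : ℝ) : Prop :=
  Tendsto (fun N => ∫ U, |pressure β (l N) U - c| ∂haarO N) atTop (𝓝 0)

end

end Vale.Agent.P166
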