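import Mathlib
import Vale.Agent.P166.Defs

/-!
# P166: inequalities at fixed size

Monotonicity, the Lipschitz bound, the Gibbs inequality, and exchangeability of equal eigenvalues
under the Haar law.
-/

namespace Vale.Agent.P166

open MeasureTheory Matrix Filter Topology

noncomputable section

instance (N : ℕ) : IsProbabilityMeasure (haarO N) := ⟨by
  simpa [haarO] using Measure.haarMeasure_self (K₀ := (⊤ : TopologicalSpace.PositiveCompacts (OMat N)))⟩

instance (N : ℕ) : (haarO N).IsMulLeftInvariant := by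
  unfold haarO
  infer_instance

variable {N : ℕ}

/-- The coordinates of a configuration in the eigenbasis, squared. -/
def coord (U : OMat N) (s : Fin N → Bool) (i : Fin N) : ℝ :=
  (((U : Matrix (Fin N) (Fin N) ℝ) *ᵥ spin s) i) ^ 2

/-- The unnormalised weight. -/
def wt (β : ℝ) (l : Fin N → ℝ) (U : OMat N) (s : Fin N → Bool) : ℝ :=
  Real.exp (β / 2 * ∑ i, l i * coord U s i)

/-- The mean squared coordinate under the Gibbs measure. -/
def mass (β : ℝ) (l : Fin N → ℝ) (U : OMat N) (i : Fin N) : ℝ :=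
  (∑ s, wt β l U s * coord U s i) / ∑ s, wt β l U s

lemma coord_nonneg (U : OMat N) (s : Fin N → Bool) (i : Fin N) : 0 ≤ coord U s i := sq_nonneg _

lemma sum_coord (U : OMat N) (s : Fin N → Bool) : ∑ i, coord U s i = N := by
  obtain ⟨A, hA⟩ : ∃ A : Matrix (Fin N) (Fin N) ℝ, A = (U : Matrix (Fin N) (Fin N) ℝ) := ⟨_, rfl⟩
  have hU : Aᵀ * A = 1 := hA ▸ (mem_orthogonalGroup_iff' (n := Fin N) (R := ℝ)).1 U.2
  have h : ∑ i, coord U s i = spin s ⬝ᵥ ((Aᵀ * A) *ᵥ spin s) := by
    rw [← mulVec_mulVec, dotProduct_mulVec, vecMul_transpose, hA]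
    simp [coord, dotProduct, pow_two]
  rw [h, hU, one_mulVec]
  have hs : ∀ i, spin s i * spin s i = 1 := fun i => by unfold spin; split_ifs <;> norm_num
  simp [dotProduct, hs]

lemma quad_eq (l : Fin N → ℝ) (U : OMat N) (s : Fin N → Bool) :
    spin s ⬝ᵥ (((U : Matrix (Fin N) (Fin N) ℝ)ᵀ * diagonal l * (U : Matrix (Fin N) (Fin N) ℝ))
      *ᵥ spin s) = ∑ i, l i * coord U s i := by
  rw [← mulVec_mulVec, ← mulVec_mulVec, dotProduct_mulVec, vecMul_transpose]
  simp only [dotProduct, mulVec_diagonal, coord]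
  exact Finset.sum_congr rfl fun i _ => by ring

lemma pressure_eq (β : ℝ) (l : Fin N → ℝ) (U : OMat N) :
    pressure β l U = Real.log ((∑ s, wt β l U s) / 2 ^ N) / N := by
  simp only [pressure, quad_eq, wt]

lemma sum_wt_pos (β : ℝ) (l : Fin N → ℝ) (U : OMat N) : 0 < ∑ s, wt β l U s :=
  Finset.sum_pos (fun _ _ => Real.exp_pos _) Finset.univ_nonempty

lemma mass_nonneg (β : ℝ) (l : Fin N → ℝ) (U : OMat N) (i : Fin N) : 0 ≤ mass β l U i :=
  div_nonneg (Finset.sum_nonneg fun s _ => mul_nonneg (Real.exp_pos _).le (coord_nonneg _ _ _))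
    (sum_wt_pos β l U).le

lemma sum_mass (β : ℝ) (l : Fin N → ℝ) (U : OMat N) : ∑ i, mass β l U i = N := by
  simp only [mass, ← Finset.sum_div]
  rw [Finset.sum_comm]
  simp only [← Finset.mul_sum, sum_coord, ← Finset.sum_mul]
  rw [mul_div_assoc, mul_comm, div_mul_cancel₀ _ (sum_wt_pos β l U).ne']

/-- The Gibbs inequality. -/
theorem pressure_sub_le (β : ℝ) (x y : Fin N → ℝ) (U : OMat N) :
    pressure β y U - pressure β x U ≤ β / 2 * (∑ i, (y i - x i) * mass β y U i) / N := by
  obtain ⟨Z, hZ⟩ : ∃ Z, Z = ∑ s, wt β y U s := ⟨_, rfl⟩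
  obtain ⟨d, hd⟩ : ∃ d : (Fin N → Bool) → ℝ, d = fun s => β / 2 * ∑ i, (y i - x i) * coord U s i :=
    ⟨_, rfl⟩
  have hZ0 : 0 < Z := hZ ▸ sum_wt_pos β y U
  have hmass : β / 2 * (∑ i, (y i - x i) * mass β y U i) = (∑ s, wt β y U s * d s) / Z := by
    simp only [mass, ← hZ, hd, Finset.mul_sum, Finset.sum_div]
    rw [Finset.sum_comm]
    exact Finset.sum_congr rfl fun s _ => Finset.sum_congr rfl fun i _ => by ring
  obtain ⟨D, hD⟩ : ∃ D, D = (∑ s, wt β y U s * d s) / Z := ⟨_, rfl⟩
  have hwx : ∀ s, wt β x U s = wt β y U s * Real.exp (-d s) := fun s => by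
    rw [wt, wt, ← Real.exp_add, hd]
    congr 1
    simp only [sub_mul, Finset.sum_sub_distrib]
    ring
  -- `exp (-d) ≥ exp (-D) (1 + D - d)`
  have hlow : Real.exp (-D) * Z ≤ ∑ s, wt β x U s := by
    have h1 : ∀ s, wt β y U s * (Real.exp (-D) * (1 + D - d s)) ≤ wt β x U s := fun s => by
      rw [hwx]
      refine mul_le_mul_of_nonneg_left ?_ (Real.exp_pos _).le
      rw [show -d s = -D + (D - d s) by ring, Real.exp_add]
      refine mul_le_mul_of_nonneg_left ?_ (Real.exp_pos _).le
      linarith [Real.add_one_le_exp (D - d s)]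
    refine le_trans (le_of_eq ?_) (Finset.sum_le_sum fun s _ => h1 s)
    have h2 : ∑ s, wt β y U s * d s = D * Z := by rw [hD, div_mul_cancel₀ _ hZ0.ne']
    calc Real.exp (-D) * Z
        = Real.exp (-D) * ((1 + D) * (∑ s, wt β y U s) - ∑ s, wt β y U s * d s) := by
          rw [h2, ← hZ]; ring
      _ = _ := by
          rw [Finset.mul_sum, ← Finset.sum_sub_distrib, Finset.mul_sum]
          exact Finset.sum_congr rfl fun s _ => by ring
  rw [hmass, ← hD, pressure_eq, pressure_eq, div_sub_div_same, ← hZ]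
  refine div_le_div_of_nonneg_right ?_ (Nat.cast_nonneg N)
  have hlog := Real.log_le_log (by positivity) hlow
  rw [Real.log_mul (Real.exp_ne_zero _) hZ0.ne', Real.log_exp] at hlog
  rw [Real.log_div hZ0.ne' (by positivity), Real.log_div (sum_wt_pos β x U).ne' (by positivity)]
  linarith

/-- The pressure increases with the eigenvalues. -/
lemma pressure_mono {β : ℝ} (hβ : 0 ≤ β) {x y : Fin N → ℝ} (h : ∀ i, x i ≤ y i) (U : OMat N) :
    pressure β x U ≤ pressure β y U := by
  rw [pressure_eq, pressure_eq]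
  refine div_le_div_of_nonneg_right (Real.log_le_log
    (div_pos (sum_wt_pos β x U) (by positivity)) ?_) (Nat.cast_nonneg N)
  refine div_le_div_of_nonneg_right (Finset.sum_le_sum fun s _ => ?_) (by positivity)
  refine Real.exp_le_exp.2 (mul_le_mul_of_nonneg_left ?_ (by positivity))
  exact Finset.sum_le_sum fun i _ => mul_le_mul_of_nonneg_right (h i) (coord_nonneg _ _ _)

/-- The Lipschitz bound in the operator norm. -/
lemma abs_pressure_sub_le {β δ : ℝ} (hβ : 0 ≤ β) (hδ : 0 ≤ δ) {x y : Fin N → ℝ}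
    (h : ∀ i, |x i - y i| ≤ δ) (U : OMat N) :
    |pressure β x U - pressure β y U| ≤ β / 2 * δ := by
  have key : ∀ x y : Fin N → ℝ, (∀ i, |x i - y i| ≤ δ) →
      pressure β y U - pressure β x U ≤ β / 2 * δ := fun x y h => by
    refine (pressure_sub_le β x y U).trans ?_
    rcases Nat.eq_zero_or_pos N with rfl | hN
    · simp only [Nat.cast_zero, div_zero]
      positivity
    rw [div_le_iff₀ (by exact_mod_cast hN), mul_assoc, ← sum_mass β y U, Finset.mul_sum]
    simp only [Finset.mul_sum]
    refine Finset.sum_le_sum fun i _ => mul_le_mul_of_nonneg_left ?_ (by positivity)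
    exact mul_le_mul_of_nonneg_right (by linarith [(abs_le.1 (h i)).1]) (mass_nonneg _ _ _ _)
  exact abs_sub_le_iff.2 ⟨key y x fun i => by rw [abs_sub_comm]; exact h i, key x y h⟩

lemma continuous_coord (s : Fin N → Bool) (i : Fin N) :
    Continuous fun U : OMat N => coord U s i := by
  simp only [coord, mulVec, dotProduct]
  exact (continuous_finsetSum _ fun k _ =>
    ((continuous_subtype_val (p := fun A : Matrix (Fin N) (Fin N) ℝ =>
      A ∈ Matrix.orthogonalGroup (Fin N) ℝ)).matrix_elem i k).mul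
      continuous_const).pow 2

lemma continuous_wt (β : ℝ) (l : Fin N → ℝ) (s : Fin N → Bool) :
    Continuous fun U => wt β l U s := by
  have := fun i => continuous_coord (N := N) s i
  unfold wt
  fun_prop

lemma continuous_pressure (β : ℝ) (l : Fin N → ℝ) : Continuous fun U => pressure β l U := by
  simp only [pressure_eq]
  have := fun s => continuous_wt β l s
  refine ((Continuous.div_const (continuous_finsetSum _ fun s _ => this s) _).log
    fun U => ?_).div_const _
  exact (div_pos (sum_wt_pos β l U) (by positivity)).ne'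

lemma continuous_mass (β : ℝ) (l : Fin N → ℝ) (i : Fin N) :
    Continuous fun U => mass β l U i :=
  (continuous_finsetSum _ fun s _ => (continuous_wt β l s).mul (continuous_coord s i)).div
    (continuous_finsetSum _ fun s _ => continuous_wt β l s) fun U => (sum_wt_pos β l U).ne'

lemma integrable_of_continuous {f : OMat N → ℝ} (hf : Continuous f) : Integrable f (haarO N) :=
  hf.integrable_of_hasCompactSupport (HasCompactSupport.of_compactSpace f)

/-- The orthogonal matrix of a permutation. -/
def permO (π : Equiv.Perm (Fin N)) : OMat N :=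
  ⟨π.permMatrix ℝ, (mem_orthogonalGroup_iff (n := Fin N) (R := ℝ)).2 (by
    rw [Matrix.transpose_permMatrix, ← Matrix.permMatrix_mul, inv_mul_cancel,
      Matrix.permMatrix_one])⟩

lemma coord_permO (π : Equiv.Perm (Fin N)) (U : OMat N) (s : Fin N → Bool) (i : Fin N) :
    coord (permO π * U) s i = coord U s (π i) := by
  unfold coord permO
  rw [Submonoid.coe_mul, ← mulVec_mulVec, permMatrix_mulVec]
  rfl

lemma wt_permO (β : ℝ) (l : Fin N → ℝ) (π : Equiv.Perm (Fin N)) (U : OMat N) (s : Fin N → Bool) :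
    wt β (l ∘ π) (permO π * U) s = wt β l U s := by
  simp only [wt, coord_permO, Function.comp_apply]
  rw [Equiv.sum_comp π fun i => l i * coord U s i]

lemma pressure_permO (β : ℝ) (l : Fin N → ℝ) (π : Equiv.Perm (Fin N)) (U : OMat N) :
    pressure β (l ∘ π) (permO π * U) = pressure β l U := by
  simp only [pressure_eq, wt_permO]

/-- The law of the pressure does not see the order of the eigenvalues. -/
theorem integral_pressure_comp (β : ℝ) (l : Fin N → ℝ) (π : Equiv.Perm (Fin N)) (F : ℝ → ℝ) :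
    ∫ U, F (pressure β (l ∘ π) U) ∂haarO N = ∫ U, F (pressure β l U) ∂haarO N := by
  rw [← integral_mul_left_eq_self (fun U => F (pressure β (l ∘ π) U)) (permO π)]
  simp only [pressure_permO]

lemma integral_mass_eq (β : ℝ) {y : Fin N → ℝ} {i j : Fin N} (h : y i = y j) :
    ∫ U, mass β y U i ∂haarO N = ∫ U, mass β y U j ∂haarO N := by
  have hy : y ∘ Equiv.swap i j = y := funext fun k => by
    simp only [Function.comp_apply, Equiv.swap_apply_def]
    split_ifs with h1 h2
    · rw [h1, h]
    · rw [h2, h]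
    · rfl
  have hm : ∀ U, mass β y (permO (Equiv.swap i j) * U) i = mass β y U j := fun U => by
    have hw : ∀ s, wt β y (permO (Equiv.swap i j) * U) s = wt β y U s := fun s => by
      conv_lhs => rw [← hy]
      exact wt_permO β y _ U s
    simp only [mass, coord_permO, hw, Equiv.swap_apply_left]
  rw [← integral_mul_left_eq_self (fun U => mass β y U i) (permO (Equiv.swap i j))]
  simp only [hm]

/-- Few eigenvalues raised to a level which many others occupy change the pressure little. -/
theorem integral_pressure_sub_le {β D : ℝ} (hβ : 0 ≤ β) {x y : Fin N → ℝ} {S G : Finset (Fin N)}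
    {r : ℝ} (hS : ∀ i ∉ S, y i ≤ x i) (hSd : ∀ i, y i - x i ≤ D) (hD : 0 ≤ D) (hSG : S ⊆ G)
    (hG : ∀ i ∈ G, ∀ j ∈ G, y i = y j) (hr : (S.card : ℝ) ≤ r * G.card) (hr0 : 0 ≤ r) :
    ∫ U, (pressure β y U - pressure β x U) ∂haarO N ≤ β / 2 * D * r := by
  rcases Nat.eq_zero_or_pos N with rfl | hN
  · simp only [pressure, Nat.cast_zero, div_zero, sub_self, integral_zero]
    positivity
  have hN' : (0 : ℝ) < N := by exact_mod_cast hN
  have hm : ∀ i, Integrable (fun U => mass β y U i) (haarO N) := fun i =>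
    integrable_of_continuous (continuous_mass β y i)
  have hpt : ∀ U, pressure β y U - pressure β x U ≤ β / 2 * D / N * ∑ i ∈ S, mass β y U i := by
    intro U
    refine (pressure_sub_le β x y U).trans ?_
    rw [show β / 2 * (∑ i, (y i - x i) * mass β y U i) / N
      = β / 2 / N * ∑ i, (y i - x i) * mass β y U i by ring,
      show β / 2 * D / N * ∑ i ∈ S, mass β y U i = β / 2 / N * ∑ i ∈ S, D * mass β y U i by
        rw [← Finset.mul_sum]; ring]
    refine mul_le_mul_of_nonneg_left ?_ (by positivity)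
    rw [← Finset.sum_add_sum_compl S]
    have h1 : ∑ i ∈ S, (y i - x i) * mass β y U i ≤ ∑ i ∈ S, D * mass β y U i :=
      Finset.sum_le_sum fun i _ => mul_le_mul_of_nonneg_right (hSd i) (mass_nonneg _ _ _ _)
    have h2 : ∑ i ∈ Sᶜ, (y i - x i) * mass β y U i ≤ 0 := Finset.sum_nonpos fun i hi =>
      mul_nonpos_of_nonpos_of_nonneg (sub_nonpos.2 (hS i (Finset.mem_compl.1 hi)))
        (mass_nonneg _ _ _ _)
    linarith
  refine (integral_mono (integrable_of_continuous
    ((continuous_pressure β y).sub (continuous_pressure β x)))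
    ((integrable_finsetSum _ fun i _ => hm i).const_mul _) hpt).trans ?_
  rw [integral_const_mul, integral_finsetSum _ fun i _ => hm i]
  rcases S.eq_empty_or_nonempty with rfl | ⟨i₀, hi₀⟩
  · simp only [Finset.sum_empty, mul_zero]
    positivity
  obtain ⟨W, hW⟩ : ∃ W, W = ∫ U, mass β y U i₀ ∂haarO N := ⟨_, rfl⟩
  have hW0 : 0 ≤ W := hW ▸ integral_nonneg fun U => mass_nonneg _ _ _ _
  rw [Finset.sum_congr rfl fun i hi => (integral_mass_eq β (hG i (hSG hi) i₀ (hSG hi₀))).trans hW.symm,
    Finset.sum_const, nsmul_eq_mul]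
  have hGW : (G.card : ℝ) * W ≤ N := by
    calc (G.card : ℝ) * W = ∫ U, (∑ i ∈ G, mass β y U i) ∂haarO N := by
          rw [integral_finsetSum _ fun i _ => hm i, Finset.sum_congr rfl fun i hi =>
            (integral_mass_eq β (hG i hi i₀ (hSG hi₀))).trans hW.symm, Finset.sum_const, nsmul_eq_mul]
      _ ≤ ∫ _U, (N : ℝ) ∂haarO N := integral_mono (integrable_finsetSum _ fun i _ => hm i)
          (integrable_const _) fun U => (Finset.sum_le_sum_of_subset_of_nonneg
            (Finset.subset_univ G) fun i _ _ => mass_nonneg _ _ _ _).trans (sum_mass β y U).le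
      _ = N := by simp
  have hSW : (S.card : ℝ) * W ≤ r * N :=
    (mul_le_mul_of_nonneg_right hr hW0).trans
      ((mul_assoc r _ W).le.trans (mul_le_mul_of_nonneg_left hGW hr0))
  calc β / 2 * D / N * (S.card * W) ≤ β / 2 * D / N * (r * N) :=
        mul_le_mul_of_nonneg_left hSW (by positivity)
    _ = β / 2 * D * r := by field_simp

end

end Vale.Agent.P166
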