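import Mathlib
import Vale.Agent.P166.Basic

/-!
# P166: arrays with few values

Two arrays with finitely many values and nearly equal multiplicities are compared through a common
array which raises few entries to the largest value.  A general array is rounded to such an array.
-/

namespace Vale.Agent.P166

open MeasureTheory Filter Topology Finset

noncomputable section

/-- The multiplicity of the value `j`. -/
def cnt {N n : ℕ} (K : Fin N → Fin (n + 1)) (j : Fin (n + 1)) : ℕ := #{i | K i = j}

lemma sum_cnt {N n : ℕ} (K : Fin N → Fin (n + 1)) : ∑ j, cnt K j = N := by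
  simpa [cnt] using (Finset.card_eq_sum_card_fiberwise (f := K) (s := univ) (t := univ)
    fun _ _ => mem_univ _).symm

/-- Raise surplus entries to the top value, leaving the prescribed multiplicities below it. -/
lemma exists_raise {N n : ℕ} (K : Fin N → Fin (n + 1)) (c : Fin (n + 1) → ℕ)
    (hc : ∀ j, c j ≤ cnt K j) :
    ∃ z : Fin N → Fin (n + 1), (∀ i, z i = K i ∨ z i = Fin.last n) ∧
      (∀ j, j ≠ Fin.last n → cnt z j = c j) ∧ cnt K (Fin.last n) ≤ cnt z (Fin.last n) ∧
      #{i | z i ≠ K i} ≤ ∑ j, (cnt K j - c j) := by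
  choose T hT hTc using fun j => Finset.exists_subset_card_eq (hc j)
  refine ⟨fun i => if i ∈ T (K i) then K i else Fin.last n, fun i => ?_, fun j hj => ?_, ?_, ?_⟩
  · by_cases h : i ∈ T (K i) <;> simp [h]
  · rw [← hTc j, cnt]
    congr 1
    ext i
    simp only [mem_filter, mem_univ, true_and]
    constructor
    · intro h
      by_cases hi : i ∈ T (K i)
      · rw [if_pos hi] at h; rwa [← h]
      · rw [if_neg hi] at h; exact absurd h.symm hj
    · intro h
      have hK : K i = j := (mem_filter.1 (hT j h)).2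
      rw [if_pos (hK.symm ▸ h), hK]
  · refine card_le_card fun i hi => ?_
    simp only [mem_filter, mem_univ, true_and] at hi ⊢
    by_cases h : i ∈ T (K i) <;> simp [h, hi]
  · calc #{i | (if i ∈ T (K i) then K i else Fin.last n) ≠ K i}
        ≤ #(univ.biUnion fun j => ({i | K i = j} : Finset (Fin N)) \ T j) := card_le_card fun i hi => by
          simp only [mem_filter, mem_univ, true_and] at hi
          refine Finset.mem_biUnion.2 ⟨K i, mem_univ _, Finset.mem_sdiff.2 ⟨?_, fun h => hi (if_pos h)⟩⟩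
          exact mem_filter.2 ⟨mem_univ _, rfl⟩
      _ ≤ ∑ j, #(({i | K i = j} : Finset (Fin N)) \ T j) := card_biUnion_le
      _ = ∑ j, (cnt K j - c j) := sum_congr rfl fun j _ => by
          rw [card_sdiff_of_subset (hT j), hTc]; rfl

/-- Arrays with nearly equal multiplicities have nearly equal pressures after a reordering. -/
theorem exists_perm_close {N n : ℕ} {β D : ℝ} (hβ : 0 ≤ β) (v : Fin (n + 1) → ℝ)
    (hv : ∀ j, v j ≤ v (Fin.last n)) (hvD : ∀ j, v (Fin.last n) - v j ≤ D)
    (K K' : Fin N → Fin (n + 1)) (htop : 0 < cnt K (Fin.last n)) :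
    ∃ π : Equiv.Perm (Fin N), ∫ U, |pressure β (v ∘ K) U - pressure β (v ∘ K' ∘ π) U| ∂haarO N
      ≤ β * D * ((∑ j, |(cnt K j : ℝ) - cnt K' j|) / cnt K (Fin.last n)) := by
  obtain ⟨z, hz, hzc, hztop, hzS⟩ :=
    exists_raise K (fun j => min (cnt K j) (cnt K' j)) fun j => min_le_left _ _
  obtain ⟨z', hz', hzc', -, hzS'⟩ :=
    exists_raise K' (fun j => min (cnt K j) (cnt K' j)) fun j => min_le_right _ _
  have hcnt : ∀ j, cnt z j = cnt z' j := by
    intro j
    rcases eq_or_ne j (Fin.last n) with rfl | hj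
    · have h1 := sum_cnt z
      have h2 := sum_cnt z'
      rw [← add_sum_erase _ _ (mem_univ (Fin.last n))] at h1 h2
      rw [sum_congr rfl fun j hj => hzc j (mem_erase.1 hj).1] at h1
      rw [sum_congr rfl fun j hj => hzc' j (mem_erase.1 hj).1] at h2
      omega
    · rw [hzc j hj, hzc' j hj]
  obtain ⟨e, he⟩ : ∃ e : Equiv.Perm (Fin N), ∀ i, z (e i) = z' i := by
    have hcard : ∀ j, Fintype.card {i // z' i = j} = Fintype.card {i // z i = j} := fun j => by
      simpa [Fintype.card_subtype, cnt] using (hcnt j).symm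
    exact ⟨Equiv.ofFiberEquiv fun j => Fintype.equivOfCardEq (hcard j), fun i =>
      Equiv.ofFiberEquiv_map _ i⟩
  refine ⟨e.symm, ?_⟩
  obtain ⟨Δ, hΔ⟩ : ∃ Δ, Δ = ∑ j, |(cnt K j : ℝ) - cnt K' j| := ⟨_, rfl⟩
  obtain ⟨G, hG⟩ : ∃ G : Finset (Fin N), G = ({i | z i = Fin.last n} : Finset (Fin N)) := ⟨_, rfl⟩
  have hGc : (0 : ℝ) < cnt K (Fin.last n) := by exact_mod_cast htop
  have hGK : (cnt K (Fin.last n) : ℝ) ≤ G.card := by rw [hG]; exact_mod_cast hztop
  have hD : 0 ≤ D := le_trans (le_of_eq (sub_self _).symm) (hvD (Fin.last n))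
  have hΔ0 : 0 ≤ Δ := hΔ ▸ sum_nonneg fun _ _ => abs_nonneg _
  have key : ∀ x : Fin N → Fin (n + 1), (∀ i, z i = x i ∨ z i = Fin.last n) →
      (#{i | z i ≠ x i} : ℝ) ≤ Δ → ∫ U, |pressure β (v ∘ x) U - pressure β (v ∘ z) U| ∂haarO N
        ≤ β / 2 * D * (Δ / cnt K (Fin.last n)) := by
    intro x hx hS
    have hle : ∀ i, (v ∘ x) i ≤ (v ∘ z) i := fun i => by
      rcases hx i with h | h <;> simp only [Function.comp_apply, h, le_refl, hv]
    have habs : ∀ U, |pressure β (v ∘ x) U - pressure β (v ∘ z) U|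
        = pressure β (v ∘ z) U - pressure β (v ∘ x) U := fun U => by
      rw [abs_of_nonpos (sub_nonpos.2 (pressure_mono hβ hle U)), neg_sub]
    simp only [habs]
    refine integral_pressure_sub_le (S := ({i | z i ≠ x i} : Finset (Fin N))) (G := G) hβ
      (fun i hi => ?_) (fun i => ?_) hD (fun i hi => ?_) (fun i hi j hj => ?_) ?_ (by positivity)
    · simp only [mem_filter, mem_univ, true_and, not_not] at hi
      simp [hi]
    · rcases hx i with h | h
      · simpa [h] using hD
      · simpa [h] using hvD (x i)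
    · simp only [hG, mem_filter, mem_univ, true_and] at hi ⊢
      exact (hx i).resolve_left hi
    · simp only [hG, mem_filter, mem_univ, true_and] at hi hj
      simp [hi, hj]
    · refine hS.trans ?_
      calc Δ = Δ / cnt K (Fin.last n) * cnt K (Fin.last n) := (div_mul_cancel₀ _ hGc.ne').symm
        _ ≤ _ := mul_le_mul_of_nonneg_left hGK (by positivity)
  have hmin : ∀ j, ((cnt K j - min (cnt K j) (cnt K' j) : ℕ) : ℝ) ≤ |(cnt K j : ℝ) - cnt K' j| ∧
      ((cnt K' j - min (cnt K j) (cnt K' j) : ℕ) : ℝ) ≤ |(cnt K j : ℝ) - cnt K' j| := by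
    intro j
    rw [Nat.cast_sub (min_le_left _ _), Nat.cast_sub (min_le_right _ _), Nat.cast_min]
    rcases le_total (cnt K j : ℝ) (cnt K' j) with h | h
    · rw [min_eq_left h, sub_self, abs_sub_comm, abs_of_nonneg (sub_nonneg.2 h)]
      exact ⟨by linarith, le_rfl⟩
    · rw [min_eq_right h, sub_self, abs_of_nonneg (sub_nonneg.2 h)]
      exact ⟨le_rfl, by linarith⟩
  have b1 := key K hz (by
    refine (Nat.cast_le.2 hzS).trans ?_
    rw [Nat.cast_sum, hΔ]
    exact sum_le_sum fun j _ => (hmin j).1)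
  have b2 := key (K' ∘ e.symm) (fun i => by
    have h := he (e.symm i)
    rw [e.apply_symm_apply] at h
    rw [h]
    exact hz' (e.symm i)) (by
    have hcard : #{i | z i ≠ (K' ∘ e.symm) i} = #{i | z' i ≠ K' i} := by
      refine (card_equiv e fun i => ?_).symm
      simp [he]
    rw [hcard]
    refine (Nat.cast_le.2 hzS').trans ?_
    rw [Nat.cast_sum, hΔ]
    exact sum_le_sum fun j _ => (hmin j).2)
  have hint : ∀ x y : Fin N → ℝ,
      Integrable (fun U => |pressure β x U - pressure β y U|) (haarO N) := fun x y =>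
    integrable_of_continuous ((continuous_pressure β x).sub (continuous_pressure β y)).abs
  refine (integral_mono (g := fun U => |pressure β (v ∘ K) U - pressure β (v ∘ z) U| +
    |pressure β (v ∘ (K' ∘ e.symm)) U - pressure β (v ∘ z) U|) (hint _ _)
    ((hint _ _).add (hint _ _)) fun U => ?_).trans ?_
  · beta_reduce
    rw [abs_sub_comm (pressure β (v ∘ (K' ∘ e.symm)) U) (pressure β (v ∘ z) U)]
    exact abs_sub_le _ _ _
  · rw [integral_add (hint _ _) (hint _ _), ← hΔ]
    linarith

/-- The number of cuts below a point, as a value index. -/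
def bin {n : ℕ} (t : Fin n → ℝ) (x : ℝ) : Fin (n + 1) :=
  ⟨#{k | t k < x}, Nat.lt_succ_of_le ((card_filter_le _ _).trans_eq (by simp))⟩

/-- The values: the left end, then the cuts. -/
def val {n : ℕ} (a : ℝ) (t : Fin n → ℝ) : Fin (n + 1) → ℝ := Fin.cons a t

/-- `n` cuts, one in each of the intervals of length `h` after `a`, none an atom of `μ`. -/
structure Cuts (μ : Measure ℝ) (a b h : ℝ) {n : ℕ} (t : Fin n → ℝ) : Prop where
  pos : 0 < n
  len : a + n * h = b
  h_pos : 0 < h
  mem : ∀ k : Fin n, a + (k : ℕ) * h < t k ∧ t k < a + ((k : ℕ) + 1) * h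
  null : ∀ k, μ {t k} = 0

lemma exists_cuts {μ : Measure ℝ} [IsFiniteMeasure μ] {a b : ℝ} (hab : a < b) {n : ℕ} (hn : 0 < n) :
    ∃ t : Fin n → ℝ, Cuts μ a b ((b - a) / n) t := by
  have hn' : (0 : ℝ) < n := by exact_mod_cast hn
  have hh : 0 < (b - a) / n := div_pos (sub_pos.2 hab) hn'
  have hat : {x : ℝ | 0 < μ {x}}.Countable := by
    simpa using Measure.countable_meas_pos_of_disjoint_iUnion (μ := μ)
      (As := fun x : ℝ => ({x} : Set ℝ)) (fun _ => measurableSet_singleton _)
      fun x y hxy => Set.disjoint_singleton.2 hxy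
  choose t ht1 ht2 using fun k : Fin n => (hat.dense_compl ℝ).exists_between
    (show a + (k : ℕ) * ((b - a) / n) < a + ((k : ℕ) + 1) * ((b - a) / n) by linarith)
  refine ⟨t, hn, ?_, hh, fun k => ht2 k, fun k => ?_⟩
  · field_simp
    ring
  · simpa using ht1 k

namespace Cuts

variable {μ : Measure ℝ} {a b h : ℝ} {n : ℕ} {t : Fin n → ℝ}

lemma strictMono (C : Cuts μ a b h t) : StrictMono t := fun i j hij => by
  have : ((i : ℕ) : ℝ) + 1 ≤ (j : ℕ) := by exact_mod_cast hij
  nlinarith [(C.mem i).2, (C.mem j).1, C.h_pos]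

lemma lt_iff (C : Cuts μ a b h t) (x : ℝ) (k : Fin n) : t k < x ↔ (k : ℕ) < (bin t x : ℕ) := by
  constructor
  · intro hk
    have : Finset.Iic k ⊆ ({j | t j < x} : Finset (Fin n)) := fun j hj => by
      simp only [mem_filter, mem_univ, true_and]
      exact (C.strictMono.monotone (mem_Iic.1 hj)).trans_lt hk
    have h' := card_le_card this
    rw [Fin.card_Iic] at h'
    exact Nat.lt_of_succ_le h'
  · intro hk
    by_contra hx
    have : ({j | t j < x} : Finset (Fin n)) ⊆ Finset.Iio k := fun j hj => by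
      simp only [mem_filter, mem_univ, true_and] at hj
      exact mem_Iio.2 (C.strictMono.lt_iff_lt.1 (hj.trans_le (not_lt.1 hx)))
    have := card_le_card this
    rw [Fin.card_Iio] at this
    exact absurd hk (not_lt.2 this)

/-- Rounding moves points by at most `3 h`. -/
lemma abs_sub_val_le (C : Cuts μ a b h t) {x : ℝ} (h1 : a - h ≤ x) (h2 : x ≤ b + h) :
    |x - val a t (bin t x)| ≤ 3 * h := by
  have hh := C.h_pos
  have key : ∀ j, bin t x = j → |x - val a t j| ≤ 3 * h := by
    refine Fin.cases (fun hj => ?_) (fun k hj => ?_)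
    · have hx : ¬ t ⟨0, C.pos⟩ < x := fun hx => by
        have := (C.lt_iff x _).1 hx; simp [hj] at this
      have := (C.mem ⟨0, C.pos⟩).2
      simp only [Nat.cast_zero, zero_add, one_mul] at this
      simp only [val, Fin.cons_zero]
      rw [abs_le]
      constructor <;> linarith
    · have hx : t k < x := (C.lt_iff x k).2 (by simp [hj])
      simp only [val, Fin.cons_succ]
      rw [abs_of_pos (sub_pos.2 hx)]
      rcases Nat.lt_or_ge ((k : ℕ) + 1) n with hk | hk
      · have hx' : ¬ t ⟨(k : ℕ) + 1, hk⟩ < x := fun hx' => by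
          have := (C.lt_iff x _).1 hx'; simp [hj] at this
        have := (C.mem ⟨(k : ℕ) + 1, hk⟩).2
        simp only [Nat.cast_add, Nat.cast_one] at this
        linarith [(C.mem k).1]
      · have hkn : ((k : ℕ) : ℝ) + 1 = n := by exact_mod_cast le_antisymm k.2 hk
        nlinarith [(C.mem k).1, C.len]
  exact key _ rfl

lemma val_mem (C : Cuts μ a b h t) (j : Fin (n + 1)) : a ≤ val a t j ∧ val a t j ≤ b := by
  have hh := C.h_pos
  have hn : (0 : ℝ) ≤ n := Nat.cast_nonneg n
  refine Fin.cases ?_ (fun k => ?_) j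
  · exact ⟨le_rfl, by simp only [val, Fin.cons_zero]; nlinarith [C.len]⟩
  · have hk : ((k : ℕ) : ℝ) + 1 ≤ n := by exact_mod_cast k.2
    simp only [val, Fin.cons_succ]
    constructor <;> nlinarith [(C.mem k).1, (C.mem k).2, C.len, Nat.cast_nonneg (α := ℝ) (k : ℕ)]

lemma val_mono (C : Cuts μ a b h t) (j : Fin (n + 1)) : val a t j ≤ val a t (Fin.last n) := by
  obtain ⟨m, rfl⟩ := Nat.exists_eq_succ_of_ne_zero C.pos.ne'
  refine Fin.cases ?_ (fun k => ?_) j
  · rw [← Fin.succ_last]
    simp only [val, Fin.cons_zero, Fin.cons_succ]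
    nlinarith [(C.mem (Fin.last m)).1, C.h_pos, Nat.cast_nonneg (α := ℝ) m, Fin.val_last m]
  · rw [← Fin.succ_last]
    simp only [val, Fin.cons_succ]
    exact C.strictMono.monotone (Fin.le_last k)

lemma frontier_subset {n : ℕ} (t : Fin n → ℝ) (j : Fin (n + 1)) :
    frontier {x | bin t x = j} ⊆ Set.range t := by
  intro x hx
  by_contra hr
  have hev : ∀ᶠ y in 𝓝 x, bin t y = bin t x := by
    have h1 : ∀ᶠ y in 𝓝 x, ∀ k, (t k < y ↔ t k < x) := by
      refine eventually_all.2 fun k => ?_
      rcases lt_trichotomy (t k) x with hk | hk | hk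
      · filter_upwards [lt_mem_nhds hk] with y hy using by simp [hy, hk]
      · exact absurd ⟨k, hk⟩ hr
      · filter_upwards [gt_mem_nhds hk] with y hy using by simp [hy.le.not_gt, hk.le.not_gt]
    filter_upwards [h1] with y hy
    ext
    simp only [bin, hy]
  rw [frontier, Set.mem_sdiff] at hx
  by_cases hj : bin t x = j
  · exact hx.2 (mem_interior_iff_mem_nhds.2 (hev.mono fun y hy => hy.trans hj))
  · exact (mem_closure_iff_frequently.1 hx.1) (hev.mono fun y hy h' => hj (hy.symm.trans h'))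

lemma bin_measurable {n : ℕ} (t : Fin n → ℝ) : Measurable (bin t) := by
  refine Monotone.measurable (fun x y hxy => ?_)
  show (bin t x : ℕ) ≤ (bin t y : ℕ)
  refine Finset.card_le_card (s := ({k | t k < x} : Finset (Fin n)))
    (t := ({k | t k < y} : Finset (Fin n))) fun k hk => ?_
  exact mem_filter.2 ⟨mem_univ _, (mem_filter.1 hk).2.trans_le hxy⟩

end Cuts

end

end Vale.Agent.P166
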