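import Mathlib
import Vale.Agent.P166.Rounding

/-!
# P166: the pressure sees only the limiting spectral law
-/

namespace Vale.Agent.P166

open MeasureTheory Filter Topology Finset
open scoped BoundedContinuousFunction NNReal ENNReal

noncomputable section

namespace Admissible

variable {μ : Measure ℝ} {a b : ℝ} {l : (N : ℕ) → Fin N → ℝ}

lemma le (A : Admissible μ a b l) : a ≤ b := by
  by_contra h
  have h1 := measure_mono_null (show Set.Icc a (a + (a - b)) ⊆ (Set.Icc a b)ᶜ from
    fun y hy hy' => h (hy'.1.trans hy'.2)) A.supp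
  exact (A.left_edge (a - b) (by linarith)).ne' h1

lemma eventually_mem (A : Admissible μ a b l) {h : ℝ} (hh : 0 < h) :
    ∀ᶠ N in atTop, ∀ i, a - h ≤ l N i ∧ l N i ≤ b + h := by
  filter_upwards [A.least.eventually (lt_mem_nhds (show a - h < a by linarith)),
    A.largest.eventually (gt_mem_nhds (show b < b + h by linarith))] with N h1 h2 i
  exact ⟨h1.le.trans (ciInf_le (Finite.bddBelow_range _) i),
    (le_ciSup (Finite.bddAbove_range _) i).trans h2.le⟩

/-- The empirical measure of a nonempty row. -/
def emp (l : (N : ℕ) → Fin N → ℝ) (N : ℕ) : ProbabilityMeasure ℝ :=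
  ⟨((N : ℝ≥0∞) + 1)⁻¹ • ∑ i, Measure.dirac (l (N + 1) i), ⟨by
    simp only [Measure.smul_apply, Measure.finsetSum_apply, measure_univ, Finset.sum_const,
      Finset.card_univ, Fintype.card_fin, nsmul_eq_mul, mul_one, smul_eq_mul, Nat.cast_add,
      Nat.cast_one]
    exact ENNReal.inv_mul_cancel (by simp) (by finiteness)⟩⟩

lemma tendsto_emp (A : Admissible μ a b l) :
    Tendsto (emp l) atTop (𝓝 (⟨μ, A.prob⟩ : ProbabilityMeasure ℝ)) := by
  refine ProbabilityMeasure.tendsto_iff_forall_integral_tendsto.2 fun f => ?_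
  refine ((A.weak f).comp (tendsto_add_atTop_nat 1)).congr fun N => ?_
  show _ = ∫ x, f x ∂(((N : ℝ≥0∞) + 1)⁻¹ • ∑ i, Measure.dirac (l (N + 1) i))
  rw [integral_smul_measure, integral_finsetSum_measure fun i _ => integrable_dirac (by simp)]
  simp [div_eq_inv_mul, ENNReal.toReal_inv, ENNReal.toReal_add]

/-- The share of eigenvalues in a bin tends to the mass of the bin. -/
lemma tendsto_cnt (A : Admissible μ a b l) {h : ℝ} {n : ℕ} {t : Fin n → ℝ} (C : Cuts μ a b h t)
    (j : Fin (n + 1)) :
    Tendsto (fun N => (cnt (fun i => bin t (l N i)) j : ℝ) / N) atTop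
      (𝓝 (μ.real {x | bin t x = j})) := by
  have := A.prob
  have hnull : μ (frontier {x | bin t x = j}) = 0 := by
    refine measure_mono_null (Cuts.frontier_subset t j) ?_
    rw [← Set.iUnion_singleton_eq_range]
    exact measure_iUnion_null C.null
  have hm : MeasurableSet {x | bin t x = j} := Cuts.bin_measurable t (measurableSet_singleton j)
  have h1 := ProbabilityMeasure.tendsto_measure_of_null_frontier_of_tendsto' A.tendsto_emp
    (E := {x | bin t x = j}) hnull
  have h2 := (ENNReal.tendsto_toReal (measure_ne_top μ _)).comp h1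
  refine (tendsto_add_atTop_iff_nat 1).1 (h2.congr fun N => ?_)
  show ((((N : ℝ≥0∞) + 1)⁻¹ • ∑ i, Measure.dirac (l (N + 1) i)) {x | bin t x = j}).toReal = _
  simp only [Measure.smul_apply, Measure.finsetSum_apply, Measure.dirac_apply' _ hm, smul_eq_mul,
    Set.indicator_apply, Set.mem_ofPred_eq, Pi.one_apply, Finset.sum_boole, cnt]
  rw [ENNReal.toReal_mul, ENNReal.toReal_inv, ENNReal.toReal_add (by simp) (by simp)]
  simp [div_eq_inv_mul]

/-- The top bin has positive mass. -/
lemma top_pos (A : Admissible μ a b l) {h : ℝ} {n : ℕ} {t : Fin n → ℝ} (C : Cuts μ a b h t) :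
    0 < μ.real {x | bin t x = Fin.last n} := by
  have := A.prob
  obtain ⟨m, rfl⟩ := Nat.exists_eq_succ_of_ne_zero C.pos.ne'
  have hsub : Set.Icc (b - (b - t (Fin.last m)) / 2) b ⊆ {x | bin t x = Fin.last (m + 1)} := by
    intro x hx
    have hlt : t (Fin.last m) < b := by
      have := (C.mem (Fin.last m)).2
      have := C.len
      push_cast [Fin.val_last] at *
      linarith
    have hk := (C.lt_iff x (Fin.last m)).1 (by linarith [hx.1])
    simp only [Set.mem_ofPred_eq, Fin.ext_iff, Fin.val_last] at hk ⊢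
    have := (bin t x).2
    omega
  refine ENNReal.toReal_pos ((A.right_edge _ ?_).trans_le (measure_mono hsub)).ne' (measure_ne_top _ _)
  have h2 := (C.mem (Fin.last m)).2
  have h3 := C.len
  push_cast [Fin.val_last] at *
  linarith

/-- The bottom bin has positive mass. -/
lemma bot_pos (A : Admissible μ a b l) {h : ℝ} {n : ℕ} {t : Fin n → ℝ} (C : Cuts μ a b h t) :
    0 < μ.real {x | bin t x = 0} := by
  have := A.prob
  have h0 := (C.mem ⟨0, C.pos⟩).1
  simp only [Nat.cast_zero, zero_mul, add_zero] at h0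
  have hsub : Set.Icc a (a + (t ⟨0, C.pos⟩ - a)) ⊆ {x | bin t x = 0} := by
    intro x hx
    have : ¬ t ⟨0, C.pos⟩ < x := by linarith [hx.2]
    rw [C.lt_iff] at this
    simp only [Set.mem_ofPred_eq, Fin.ext_iff, Fin.val_zero] at this ⊢
    omega
  exact ENNReal.toReal_pos ((A.left_edge _ (by linarith)).trans_le (measure_mono hsub)).ne'
    (measure_ne_top _ _)

end Admissible

/-- The rounded array. -/
def rounded {n : ℕ} (a : ℝ) (t : Fin n → ℝ) (l : (N : ℕ) → Fin N → ℝ) (N : ℕ) : Fin N → ℝ :=
  val a t ∘ fun i => bin t (l N i)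

section

variable {μ : Measure ℝ} {a b β : ℝ} {l l' : (N : ℕ) → Fin N → ℝ}

lemma eventually_round (hβ : 0 ≤ β) (A : Admissible μ a b l) {h : ℝ} {n : ℕ} {t : Fin n → ℝ}
    (C : Cuts μ a b h t) :
    ∀ᶠ N in atTop, ∀ U, |pressure β (l N) U - pressure β (rounded a t l N) U| ≤ β / 2 * (3 * h) := by
  filter_upwards [A.eventually_mem C.h_pos] with N hN U
  exact abs_pressure_sub_le hβ (by linarith [C.h_pos]) (fun i => C.abs_sub_val_le (hN i).1 (hN i).2) U

lemma integrable_comp (F : ℝ → ℝ) (hF : Continuous F) {N : ℕ} (x : Fin N → ℝ) :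
    Integrable (fun U => F (pressure β x U)) (haarO N) :=
  integrable_of_continuous (hF.comp (continuous_pressure β x))

/-- A Lipschitz observable of two nearby pressures. -/
lemma abs_integral_sub_le {L : ℝ≥0} {F : ℝ → ℝ} (hF : LipschitzWith L F) {N : ℕ}
    (x y : Fin N → ℝ) {d : ℝ} (h : ∫ U, |pressure β x U - pressure β y U| ∂haarO N ≤ d) :
    |∫ U, F (pressure β x U) ∂haarO N - ∫ U, F (pressure β y U) ∂haarO N| ≤ L * d := by
  rw [← integral_sub (integrable_comp F hF.continuous x) (integrable_comp F hF.continuous y)]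
  refine (abs_integral_le_integral_abs).trans (le_trans ?_ (mul_le_mul_of_nonneg_left h L.2))
  rw [← integral_const_mul]
  refine integral_mono (integrable_of_continuous
    ((hF.continuous.comp (continuous_pressure β x)).sub
      (hF.continuous.comp (continuous_pressure β y))).abs)
    (integrable_of_continuous
      (continuous_const.mul ((continuous_pressure β x).sub (continuous_pressure β y)).abs))
    fun U => ?_
  simpa [Real.dist_eq] using hF.dist_le_mul (pressure β x U) (pressure β y U)

lemma integral_abs_le_of_forall {N : ℕ} {x y : Fin N → ℝ} {d : ℝ}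
    (h : ∀ U, |pressure β x U - pressure β y U| ≤ d) :
    ∫ U, |pressure β x U - pressure β y U| ∂haarO N ≤ d := by
  refine (integral_mono (integrable_of_continuous
    ((continuous_pressure β x).sub (continuous_pressure β y)).abs) (integrable_const d) h).trans ?_
  simp

/-- **Universality.** Two arrays with the same limiting law and edges give pressures with
asymptotically equal laws. -/
theorem universality (hβ : 0 ≤ β) (A : Admissible μ a b l) (A' : Admissible μ a b l') {L : ℝ≥0}
    {F : ℝ → ℝ} (hF : LipschitzWith L F) :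
    Tendsto (fun N => ∫ U, F (pressure β (l N) U) ∂haarO N - ∫ U, F (pressure β (l' N) U) ∂haarO N)
      atTop (𝓝 0) := by
  have := A.prob
  rw [Metric.tendsto_nhds]
  intro ε hε
  simp only [Real.dist_eq, sub_zero]
  obtain ⟨η, hη, hηε⟩ : ∃ η : ℝ, 0 < η ∧ (L : ℝ) * β * (9 * η) < ε :=
    ⟨ε / (9 * (L * β) + 1), by positivity, by
      rw [← mul_assoc, mul_div_assoc', div_lt_iff₀ (by positivity)]; nlinarith⟩
  rcases A.le.eq_or_lt with hab | hab
  · subst hab
    filter_upwards [A.eventually_mem hη, A'.eventually_mem hη] with N h1 h2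
    refine (abs_integral_sub_le hF _ _ (integral_abs_le_of_forall fun U =>
      abs_pressure_sub_le hβ (by linarith) (fun i => abs_sub_le_iff.2
        ⟨by linarith [(h1 i).2, (h2 i).1], by linarith [(h1 i).1, (h2 i).2]⟩ :
          ∀ i, |l N i - l' N i| ≤ 2 * η) U)).trans_lt ?_
    nlinarith [mul_nonneg (mul_nonneg L.2 hβ) hη.le]
  obtain ⟨n, hn⟩ := exists_nat_gt ((b - a) / η)
  have hn0 : 0 < n := by
    by_contra h0
    simp only [not_lt, nonpos_iff_eq_zero] at h0
    subst h0
    have := div_pos (sub_pos.2 hab) hη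
    simp only [Nat.cast_zero] at hn
    linarith
  obtain ⟨t, C⟩ := exists_cuts (μ := μ) hab hn0
  have hh : (b - a) / n ≤ η := by
    rw [div_le_iff₀ (by exact_mod_cast hn0), mul_comm]
    exact ((div_lt_iff₀ hη).1 hn).le
  have hlim : Tendsto (fun N : ℕ => β * (b - a) * ((∑ j, |(cnt (fun i => bin t (l N i)) j : ℝ) / N -
      cnt (fun i => bin t (l' N i)) j / N|) / ((cnt (fun i => bin t (l N i)) (Fin.last n) : ℝ) / N)))
      atTop (𝓝 0) := by
    have := ((tendsto_finsetSum univ fun j _ =>
      ((A.tendsto_cnt C j).sub (A'.tendsto_cnt C j)).abs).div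
        (A.tendsto_cnt C (Fin.last n)) (A.top_pos C).ne').const_mul (β * (b - a))
    simpa using this
  filter_upwards [eventually_round hβ A C, eventually_round hβ A' C,
    (A.tendsto_cnt C (Fin.last n)).eventually (lt_mem_nhds (A.top_pos C)),
    eventually_gt_atTop 0,
    hlim.eventually (gt_mem_nhds (show (0 : ℝ) < ε / (2 * (L + 1)) by positivity))]
    with N r1 r2 htop hN hsmall
  have htop' : 0 < cnt (fun i => bin t (l N i)) (Fin.last n) := Nat.pos_of_ne_zero fun h => by
    simp [h] at htop
  obtain ⟨π, hπ⟩ := exists_perm_close hβ (val a t) C.val_mono (D := b - a)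
    (fun j => by linarith [(C.val_mem j).1, (C.val_mem (Fin.last n)).2]) (fun i => bin t (l N i))
    (fun i => bin t (l' N i)) htop'
  have hN' : (N : ℝ) ≠ 0 := by exact_mod_cast hN.ne'
  have hratio : β * (b - a) * ((∑ j, |(cnt (fun i => bin t (l N i)) j : ℝ) -
      cnt (fun i => bin t (l' N i)) j|) / cnt (fun i => bin t (l N i)) (Fin.last n))
      = β * (b - a) * ((∑ j, |(cnt (fun i => bin t (l N i)) j : ℝ) / N -
      cnt (fun i => bin t (l' N i)) j / N|) / ((cnt (fun i => bin t (l N i)) (Fin.last n) : ℝ) / N)) := by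
    simp only [← sub_div, abs_div, Nat.abs_cast, ← Finset.sum_div]
    rw [div_div_div_cancel_right₀ hN']
  rw [hratio] at hπ
  have e1 := abs_integral_sub_le hF (l N) (rounded a t l N) (integral_abs_le_of_forall r1)
  have e3 := abs_integral_sub_le hF (l' N) (rounded a t l' N) (integral_abs_le_of_forall r2)
  have e2 := abs_integral_sub_le hF _ _ hπ
  rw [show val a t ∘ (fun i => bin t (l' N i)) ∘ π = rounded a t l' N ∘ π from rfl,
    integral_pressure_comp β _ π F] at e2
  change |∫ U, F (pressure β (rounded a t l N) U) ∂haarO N - _| ≤ _ at e2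
  have h3 : (L : ℝ) * (β / 2 * (3 * ((b - a) / n))) ≤ L * (β * (2 * η)) := by
    refine mul_le_mul_of_nonneg_left ?_ L.2
    nlinarith [mul_le_mul_of_nonneg_left hh hβ, mul_nonneg hβ hη.le]
  have h4 : (L : ℝ) * (ε / (2 * (L + 1))) ≤ ε / 2 := by
    rw [mul_div_assoc', div_le_div_iff₀ (by positivity) two_pos]
    nlinarith [L.2]
  have h5 := mul_le_mul_of_nonneg_left hsmall.le L.2
  have h6 : (L : ℝ) * (β * (2 * η)) * 2 + ε / 2 < ε := by
    nlinarith [mul_nonneg (mul_nonneg L.2 hβ) hη.le]
  have := abs_sub_le (∫ U, F (pressure β (l N) U) ∂haarO N)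
    (∫ U, F (pressure β (rounded a t l' N) U) ∂haarO N) (∫ U, F (pressure β (l' N) U) ∂haarO N)
  have := abs_sub_le (∫ U, F (pressure β (l N) U) ∂haarO N)
    (∫ U, F (pressure β (rounded a t l N) U) ∂haarO N)
    (∫ U, F (pressure β (rounded a t l' N) U) ∂haarO N)
  rw [abs_sub_comm] at e3
  nlinarith [mul_nonneg (mul_nonneg L.2 hβ) hη.le]

/-- The rounded array is admissible for a measure with finitely many atoms. -/
lemma admissible_rounded (A : Admissible μ a b l) {h : ℝ} {n : ℕ} {t : Fin n → ℝ}
    (C : Cuts μ a b h t) :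
    Admissible (μ.map (val a t ∘ bin t)) a (val a t (Fin.last n)) (rounded a t l) := by
  have := A.prob
  have hmeas : Measurable (val a t ∘ bin t) := (measurable_of_finite _).comp (Cuts.bin_measurable t)
  have hedge : ∀ j : Fin (n + 1), ∀ s : Set ℝ, MeasurableSet s → val a t j ∈ s →
      0 < μ.real {x | bin t x = j} → 0 < μ.map (val a t ∘ bin t) s := fun j s hs hj hpos => by
    rw [Measure.map_apply hmeas hs]
    refine ((ENNReal.toReal_pos_iff.1 hpos).1).trans_le (measure_mono fun x (hx : bin t x = j) => ?_)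
    show val a t (bin t x) ∈ s
    rwa [hx]
  have hev : ∀ j, 0 < μ.real {x | bin t x = j} →
      ∀ᶠ N in atTop, ∃ i, bin t (l N i) = j := fun j hj => by
    filter_upwards [(A.tendsto_cnt C j).eventually (lt_mem_nhds hj)] with N hN
    by_contra h
    push Not at h
    have h0 : cnt (fun i => bin t (l N i)) j = 0 := by simp [cnt, h]
    simp [h0] at hN
  refine ⟨Measure.isProbabilityMeasure_map hmeas.aemeasurable, ?_, fun ε hε => ?_, fun ε hε => ?_,
    fun f => ?_, ?_, ?_⟩
  · rw [Measure.map_apply hmeas measurableSet_Icc.compl,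
      show (val a t ∘ bin t) ⁻¹' (Set.Icc a (val a t (Fin.last n)))ᶜ = ∅ from
        Set.eq_empty_iff_forall_notMem.2 fun x hx => hx ⟨(C.val_mem _).1, C.val_mono _⟩,
      measure_empty]
  · refine hedge 0 _ measurableSet_Icc ?_ (A.bot_pos C)
    simp only [val, Fin.cons_zero, Set.mem_Icc]
    constructor <;> linarith
  · exact hedge (Fin.last n) _ measurableSet_Icc ⟨by linarith, le_rfl⟩ (A.top_pos C)
  · have hsplit : ∀ (x : ℝ), f (val a t (bin t x))
        = ∑ j, {x | bin t x = j}.indicator (fun _ => f (val a t j)) x := fun x => by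
      simp [Set.indicator_apply]
    have hint : ∫ x, f x ∂μ.map (val a t ∘ bin t) = ∑ j, μ.real {x | bin t x = j} * f (val a t j) := by
      rw [integral_map hmeas.aemeasurable f.continuous.aestronglyMeasurable]
      simp only [Function.comp_apply, hsplit]
      have hm : ∀ j, MeasurableSet {x | bin t x = j} := fun j =>
        Cuts.bin_measurable t (measurableSet_singleton j)
      rw [integral_finsetSum _ fun j _ => (integrable_const _).indicator (hm j)]
      simp [integral_indicator_const, hm]
    rw [hint]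
    refine (tendsto_finsetSum univ fun j _ =>
      (A.tendsto_cnt C j).mul_const (f (val a t j))).congr fun N => ?_
    rw [Finset.sum_div, ← Finset.sum_fiberwise univ (fun i => bin t (l N i))]
    refine sum_congr rfl fun j _ => ?_
    rw [sum_congr rfl (g := fun _ => f (val a t j) / N) fun i hi => by
      simp only [rounded, Function.comp_apply, (mem_filter.1 hi).2]]
    simp [cnt]
    ring
  · refine Tendsto.congr' ?_ tendsto_const_nhds
    filter_upwards [hev 0 (A.bot_pos C)] with N ⟨i, hi⟩
    have : Nonempty (Fin N) := ⟨i⟩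
    refine le_antisymm (le_ciInf fun k => (C.val_mem (bin t (l N k))).1) ((ciInf_le (Finite.bddBelow_range _) i).trans ?_)
    simp [rounded, hi, val]
  · refine Tendsto.congr' ?_ tendsto_const_nhds
    filter_upwards [hev (Fin.last n) (A.top_pos C)] with N ⟨i, hi⟩
    have : Nonempty (Fin N) := ⟨i⟩
    refine le_antisymm ((le_of_eq ?_).trans (le_ciSup (Finite.bddAbove_range _) i))
      (ciSup_le fun k => C.val_mono (bin t (l N k)))
    simp [rounded, hi]

/-- **Reduction.** Deterministic limits for finitely supported laws give them for all laws. -/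
theorem reduction (hβ : 0 ≤ β)
    (H : ∀ (ν : Measure ℝ) (a' b' : ℝ) (k : (N : ℕ) → Fin N → ℝ), Admissible ν a' b' k →
      (∃ s : Finset ℝ, ν (↑s)ᶜ = 0) → ∃ c, ConvergesTo β k c)
    (μ : Measure ℝ) (a b : ℝ) :
    ∃ c, ∀ k : (N : ℕ) → Fin N → ℝ, Admissible μ a b k → ConvergesTo β k c := by
  by_cases hex : ∃ l : (N : ℕ) → Fin N → ℝ, Admissible μ a b l
  swap
  · exact ⟨0, fun k hk => absurd ⟨k, hk⟩ hex⟩
  obtain ⟨l, A⟩ := hex
  suffices hl : ∃ c, ConvergesTo β l c by
    obtain ⟨c, hc⟩ := hl
    refine ⟨c, fun k hk => ?_⟩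
    have := (universality hβ hk A (F := fun x => |x - c|) (L := 1) (by
      refine LipschitzWith.of_dist_le_mul fun x y => ?_
      simpa [Real.dist_eq] using abs_abs_sub_abs_le (x - c) (y - c))).add hc
    simpa [ConvergesTo] using this
  have := A.prob
  rcases A.le.eq_or_lt with hab | hab
  · exact H μ a b l A ⟨{a}, by simpa [← hab] using A.supp⟩
  choose t C using fun m : ℕ => exists_cuts (μ := μ) hab (n := m + 1) (Nat.succ_pos m)
  choose c hc using fun m : ℕ => H _ _ _ _ (admissible_rounded A (C m)) ⟨univ.image (val a (t m)), by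
    rw [Measure.map_apply ((measurable_of_finite _).comp (Cuts.bin_measurable (t m)))
      (Finset.measurableSet _).compl,
      show (val a (t m) ∘ bin (t m)) ⁻¹' (↑(univ.image (val a (t m))) : Set ℝ)ᶜ = ∅ from
        Set.eq_empty_iff_forall_notMem.2 fun x hx => hx (by simp),
      measure_empty]⟩
  obtain ⟨e, he⟩ : ∃ e : ℕ → ℝ, e = fun m => β / 2 * (3 * ((b - a) / ((m + 1 : ℕ) : ℝ))) := ⟨_, rfl⟩
  have he0 : Tendsto e atTop (𝓝 0) := by
    rw [he]
    have h1 := ((tendsto_natCast_atTop_atTop (R := ℝ)).comp (tendsto_add_atTop_nat 1))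
    simpa using ((h1.const_div_atTop (b - a)).const_mul 3).const_mul (β / 2)
  have hnear : ∀ m, ∀ δ > 0, ∀ᶠ N in atTop,
      ∫ U, |pressure β (l N) U - c m| ∂haarO N ≤ e m + δ := fun m δ hδ => by
    filter_upwards [eventually_round hβ A (C m), (hc m).eventually (gt_mem_nhds hδ)] with N hN hN'
    have hi : ∀ (x : Fin N → ℝ) (r : ℝ), Integrable (fun U => |pressure β x U - r|) (haarO N) :=
      fun x r => integrable_of_continuous ((continuous_pressure β x).sub continuous_const).abs
    have hi' : Integrable (fun U =>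
        |pressure β (l N) U - pressure β (rounded a (t m) l N) U|) (haarO N) := integrable_of_continuous
      ((continuous_pressure β (l N)).sub (continuous_pressure β (rounded a (t m) l N))).abs
    refine (integral_mono (g := fun U => |pressure β (l N) U - pressure β (rounded a (t m) l N) U|
      + |pressure β (rounded a (t m) l N) U - c m|) (hi _ _) (hi'.add (hi _ _))
      fun U => abs_sub_le _ _ _).trans ?_
    rw [integral_add hi' (hi _ _)]
    exact add_le_add ((integral_abs_le_of_forall hN).trans (by rw [he])) hN'.le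
  have hclose : ∀ m m', |c m - c m'| ≤ e m + e m' := fun m m' => by
    refine le_of_forall_pos_le_add fun δ hδ => ?_
    obtain ⟨N, h1, h2⟩ := ((hnear m (δ / 2) (by linarith)).and (hnear m' (δ / 2) (by linarith))).exists
    have hi : ∀ r, Integrable (fun U => |pressure β (l N) U - r|) (haarO N) :=
      fun r => integrable_of_continuous ((continuous_pressure β _).sub continuous_const).abs
    have := integral_mono (μ := haarO N) (integrable_const |c m - c m'|)
      (((hi (c m))).add (hi (c m'))) fun U => by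
        show |c m - c m'| ≤ |pressure β (l N) U - c m| + |pressure β (l N) U - c m'|
        rw [abs_sub_comm (pressure β (l N) U) (c m)]
        exact abs_sub_le _ _ _
    rw [integral_add' (hi _) (hi _)] at this
    simp at this
    linarith
  obtain ⟨c₀, hc₀⟩ := cauchySeq_tendsto_of_complete (show CauchySeq c from
    Metric.cauchySeq_iff.2 fun ε hε => by
      obtain ⟨M, hM⟩ := eventually_atTop.1 (he0.eventually (gt_mem_nhds (half_pos hε)))
      exact ⟨M, fun m hm m' hm' => by
        rw [Real.dist_eq]; linarith [hclose m m', hM m hm, hM m' hm']⟩)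
  refine ⟨c₀, ?_⟩
  rw [ConvergesTo, Metric.tendsto_nhds]
  intro ε hε
  obtain ⟨m, h1, h2⟩ := ((he0.eventually (gt_mem_nhds (show (0 : ℝ) < ε / 4 by linarith))).and
    (hc₀.eventually (Metric.ball_mem_nhds c₀ (show (0 : ℝ) < ε / 4 by linarith)))).exists
  filter_upwards [hnear m (ε / 4) (by linarith)] with N hN
  rw [Real.dist_eq, sub_zero, abs_of_nonneg (integral_nonneg fun _ => abs_nonneg _)]
  have hi : ∀ r, Integrable (fun U => |pressure β (l N) U - r|) (haarO N) :=
    fun r => integrable_of_continuous ((continuous_pressure β _).sub continuous_const).abs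
  have := integral_mono (μ := haarO N) (hi c₀) ((hi (c m)).add (integrable_const |c m - c₀|))
    fun U => abs_sub_le _ (c m) _
  rw [integral_add' (hi _) (integrable_const _)] at this
  simp at this
  rw [Real.dist_eq] at h2
  linarith

end

end

end Vale.Agent.P166
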